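import Crest.Agent.X212.Lix26.Core
import Crest.Agent.X212.Lix26.Cut
import Crest.Agent.X212.Dif64.Main
import Crest.Agent.X212.Lix26.Main
import Crest.Agent.X212.Sw21.Ly
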