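import Crest.Agent.X212.Kit16.Sb1
import Crest.Agent.X212.Kit16.Sb2
import Crest.Agent.X212.Klp2.Gw
import Crest.Agent.X212.Sm10.L2e
import Crest.Agent.X212.Sw21.SbA
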